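import Mathlib

/-!
# P127 / U / H833 : averages over the steps and over the depth `b` (helper833)
-/

set_option autoImplicit false

namespace Vale.Agent.P127.U.H833

open Finset

/-- Cauchy-Schwarz for a sum of square roots -/
theorem sum_sqrt_le {ι : Type*} (s : Finset ι) (f : ι → ℝ) (hf : ∀ i ∈ s, 0 ≤ f i) {A : ℝ}
    (h : ∑ i ∈ s, f i ≤ A) : ∑ i ∈ s, Real.sqrt (f i) ≤ Real.sqrt (s.card * A) := by
  have h1 : (∑ i ∈ s, Real.sqrt (f i)) ^ 2 ≤ s.card * ∑ i ∈ s, (Real.sqrt (f i)) ^ 2 :=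
    sq_sum_le_card_mul_sum_sq
  have h2 : ∑ i ∈ s, (Real.sqrt (f i)) ^ 2 = ∑ i ∈ s, f i :=
    Finset.sum_congr rfl fun i hi => Real.sq_sqrt (hf i hi)
  rw [h2] at h1
  refine Real.le_sqrt_of_sq_le (h1.trans ?_)
  exact mul_le_mul_of_nonneg_left h (Nat.cast_nonneg _)

/-- choice of `b` : both informations are small on average over the steps -/
theorem exists_b {ι κ : Type*} (B : Finset κ) (hB : B.Nonempty) (s : Finset ι)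
    (I₁ I₂ : ι → κ → ℝ) (h1 : ∀ i ∈ s, ∀ b ∈ B, 0 ≤ I₁ i b) (h2 : ∀ i ∈ s, ∀ b ∈ B, 0 ≤ I₂ i b)
    {A₁ A₂ : ℝ} (hA₁ : ∀ b ∈ B, ∑ i ∈ s, I₁ i b ≤ A₁) (hA₂ : ∀ i ∈ s, ∑ b ∈ B, I₂ i b ≤ A₂) :
    ∃ b ∈ B, ∑ i ∈ s, Real.sqrt (I₁ i b) ≤ Real.sqrt (s.card * A₁) ∧
      ∑ i ∈ s, Real.sqrt (I₂ i b) ≤ s.card * Real.sqrt (A₂ / B.card) := by
  have hBc : (0 : ℝ) < B.card := by exact_mod_cast hB.card_pos
  have hsum : ∑ b ∈ B, ∑ i ∈ s, I₂ i b ≤ ∑ b ∈ B, (s.card * A₂ / B.card) := by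
    rw [Finset.sum_comm, Finset.sum_const, nsmul_eq_mul]
    have h3 : ∑ i ∈ s, ∑ b ∈ B, I₂ i b ≤ ∑ _i ∈ s, A₂ := Finset.sum_le_sum hA₂
    rw [Finset.sum_const, nsmul_eq_mul] at h3
    have h4 : (B.card : ℝ) * (s.card * A₂ / B.card) = s.card * A₂ := by
      field_simp
    rw [h4]
    exact h3
  obtain ⟨b, hb, hb2⟩ := Finset.exists_le_of_sum_le hB hsum
  refine ⟨b, hb, sum_sqrt_le s _ (fun i hi => h1 i hi b hb) (hA₁ b hb), ?_⟩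
  refine (sum_sqrt_le s _ (fun i hi => h2 i hi b hb) hb2).trans (le_of_eq ?_)
  have h5 : (s.card : ℝ) * (s.card * A₂ / B.card) = (s.card : ℝ) ^ 2 * (A₂ / B.card) := by ring
  rw [h5, Real.sqrt_mul (by positivity), Real.sqrt_sq (Nat.cast_nonneg _)]

end Vale.Agent.P127.U.H833
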