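import Vale.Agent.P127.U.H833.MicC
import Vale.Agent.P127.U.H172.Ends
import Vale.Agent.P127.U.H715.Trn
import Vale.Agent.P127.U.Mic.Sat
import Vale.Agent.P127.U.Mic.Num2

/-!
# P127 / U / H833 : the micro part (helper833)

`pMic : PMic` : composition of `mic_core` (windows, M-step), the generic translation (`pTrn`), the ends
(`pEnds`) and the choice of the parameters (`params`).
-/

set_option autoImplicit false

namespace Vale.Agent.P127.U.H833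

open Finset Vale.Agent.P127 Vale.Agent.P127.Stk Vale.Agent.P127.U.CellD Vale.Agent.P127.U.Mic

section

variable {Ω : Type} [Fintype Ω] (P : Law Ω) {C : Pth Ω} {m n h q M J b1 b2 : ℕ} {lam ε : ℝ}
  {B : Finset ℕ}

/-- the number of base levels -/
theorem card_le (H : Hyp P C m n h q M J b1 b2 lam ε B) (hm : 1 ≤ m) : B.card ≤ h := by
  have h1 : B ⊆ range (b2 + 1) := by
    intro k hk
    have h2 := (H.hB k hk).2
    have h3 : 1 * k ≤ m * k := Nat.mul_le_mul_right k hm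
    rw [Finset.mem_range]
    omega
  have h2 := Finset.card_le_card h1
  rw [Finset.card_range] at h2
  have h3 := H.ends.1
  omega

/-- the number of steps -/
theorem steps_le (H : Hyp P C m n h q M J b1 b2 lam ε B) {K : ℕ} (hq : q ≤ K * h) :
    (n : ℝ) * m ≤ (K + 1) * h := by
  have h1 := H.blk.sum_eq (le_refl n)
  have h2 := H.ends
  have h3 : n * m ≤ (K + 1) * h := by
    have e1 : (K + 1) * h = K * h + h := by ring
    have e2 : n * m = m * n := Nat.mul_comm n m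
    omega
  exact_mod_cast h3

/-- **MIC, explicit form** -/
theorem mic_expl {c cT : ℕ} (hS : PSatC c) (hc : 1 ≤ c)
    (hT : ∀ (κ : ℕ), (∀ x ∈ B, 2 * κ ≤ m * x) → ∃ o1 o2 o3 : ℝ, 0 ≤ o1 ∧ o1 ≤ 1 ∧ 0 ≤ o2 ∧ o2 ≤ 1 ∧
      0 ≤ o3 ∧ o3 ≤ 1 ∧ ∀ x ∈ B, ∀ j ≤ n,
        amb P (tk C o1 o2 o3 κ) h q (m * x) j ≤ cT * B.card * (n + 1) / 2 ^ κ)
    {cE : ℝ} (hE : ∀ (κ b : ℕ) (o1 o2 o3 : ℝ), 0 ≤ o1 → o1 ≤ 1 → 0 ≤ o2 → o2 ≤ 1 → 0 ≤ o3 →
      o3 ≤ 1 → C.a n + b ≤ h → C.r n + b ≤ q → 2 * κ ≤ b →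
      amb P (tk C o1 o2 o3 κ) h q b n * (n + 1) ≤ 1 →
      mi P C.ln ((tk C o1 o2 o3 κ).J n b) ((tk C o1 o2 o3 κ).J 0 b) - b * Real.log 2 - cE ≤
        mi P C.ln (box C h q) (box C (C.a 0) (C.r 0)))
    (H : Hyp P C m n h q M J b1 b2 lam ε B)
    (hm : 1 ≤ m) (hBn : B.Nonempty)
    {κ g p L1 K0 β : ℕ} (hg : g = (M + 1) * m) (hp : c * g ≤ p) (hL : 1 ≤ L1) (hK : 1 ≤ K0)
    (h1 : κ + p ≤ K0 * m) (h3 : 2 * κ + p ≤ β * m) (h4 : 2 * κ + m + p ≤ b1) {ρ : ℝ}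
    (hρ : cT * B.card * (n + 1) / 2 ^ κ ≤ ρ) (hρ1 : ρ * (n + 1) ≤ 1) :
    (2 * ((C.a n : ℝ) - C.a 0) + ((C.r n : ℝ) - C.r 0)) * Real.log 2 -
        (2 * Real.log 2 * m * ((n / L1 + 1 : ℕ) * (K0 * (M + J + 2)) + ε * n) + c * n +
          c * m * (2 * M * ε * n + n * (12 * Real.sqrt ε + 3 * ρ)) +
          2 * m * Real.log 2 * (ε * n) +
          (2 : ℝ) ^ (c * g) * (Real.sqrt (n * (L1 * (p * Real.log 2))) +
            n * Real.sqrt (β * (L1 * (m * Real.log 2)) / B.card)) + b2 * Real.log 2 + cE) ≤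
      mi P C.ln (box C h q) (box C (C.a 0) (C.r 0)) := by
  have hk : ∀ x ∈ B, 2 * κ ≤ m * x := fun x hx => by
    have := (H.hB x hx).1
    omega
  obtain ⟨o1, o2, o3, u1, u2, u3, u4, u5, u6, hamb⟩ := hT κ hk
  have hamb' : ∀ x ∈ B, ∀ j ≤ n, amb P (tk C o1 o2 o3 κ) h q (m * x) j ≤ ρ :=
    fun x hx j hj => (hamb x hx j hj).trans hρ
  obtain ⟨x, hx, hcore⟩ := mic_core P hS hc H hm hBn o1 o2 o3 hg hp hL hK h1 h3 h4 hamb'
  have hxb := H.hB x hx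
  have hends := H.ends
  have hE1 := hE κ (m * x) o1 o2 o3 u1 u2 u3 u4 u5 u6 (by omega) (by omega) (hk x hx)
    ((mul_le_mul_of_nonneg_right (hamb' x hx n le_rfl) (by positivity)).trans hρ1)
  have hlog : (0 : ℝ) ≤ Real.log 2 := Real.log_nonneg (by norm_num)
  have hb2 : ((m * x : ℕ) : ℝ) * Real.log 2 ≤ b2 * Real.log 2 :=
    mul_le_mul_of_nonneg_right (by exact_mod_cast hxb.2) hlog
  linarith

end

theorem PSatC.mono {c c' : ℕ} (h : PSatC c) (hc : c ≤ c') : PSatC c' := by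
  intro Ω _ P C m b b' g p j i' ι₁ ι₂ h1 h2 h3 h4 h5 h6 h7 h8 h9 h10
  refine Sat.mono (h P C m b b' g p j i' ι₁ ι₂ h1 h2
    ((Nat.mul_le_mul_right g hc).trans h3) h4 h5 h6 h7 h8 h9 h10) ?_
  have e1 : (c : ℝ) ≤ c' := by exact_mod_cast hc
  have e2 := colp_nonneg P (fun ω => fl1 (C.a j + g) (C.t ω)) (C.J j b)
  have e3 := colp_nonneg P (fun ω => fl1 (C.r j + g) (C.v ω)) (C.J j b)
  have e4 := colp_nonneg P (fun ω => fl1 (b + g) (C.y1 ω)) (C.J j b)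
  have e5 : (2 : ℝ) ^ (c * g) ≤ 2 ^ (c' * g) :=
    pow_le_pow_right₀ (by norm_num) (Nat.mul_le_mul_right g hc)
  gcongr

/-- **PMic**, from the M-step, the translation and the ends -/
theorem pMic_of {c cT : ℕ} {cE : ℝ} (hc : 1 ≤ c) (hS : PSatC c)
    (hT : ∀ {Ω : Type} [Fintype Ω] (P : Law Ω) (C : Pth Ω) (n h q : ℕ) (B : Finset ℕ),
      (∀ b ∈ B, C.a n + b ≤ h ∧ C.r n + b ≤ q ∧ 2 * C.κ ≤ b) →
      ∃ o1 o2 o3 : ℝ, 0 ≤ o1 ∧ o1 ≤ 1 ∧ 0 ≤ o2 ∧ o2 ≤ 1 ∧ 0 ≤ o3 ∧ o3 ≤ 1 ∧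
        ∀ b ∈ B, ∀ j ≤ n, amb P (trn C o1 o2 o3) h q b j ≤ cT * B.card * (n + 1) / 2 ^ C.κ)
    (hE : ∀ {Ω : Type} [Fintype Ω] (P : Law Ω) (C : Pth Ω)
      (n h q b : ℕ) (o1 o2 o3 : ℝ), 0 ≤ o1 → o1 ≤ 1 → 0 ≤ o2 → o2 ≤ 1 → 0 ≤ o3 → o3 ≤ 1 →
      C.a n + b ≤ h → C.r n + b ≤ q → 2 * C.κ ≤ b →
      amb P (trn C o1 o2 o3) h q b n * (n + 1) ≤ 1 →
      mi P C.ln ((trn C o1 o2 o3).J n b) ((trn C o1 o2 o3).J 0 b) - b * Real.log 2 - cE ≤
        mi P C.ln (box C h q) (box C (C.a 0) (C.r 0))) : PMic := by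
  classical
  intro K M lam ε' hlam hε'
  set A : ℝ := 3 + c * (2 * M + 12) + |cE| + cT with hA
  have hc1 : (1 : ℝ) ≤ c := by exact_mod_cast hc
  have hcE0 := abs_nonneg cE
  have hcE1 := le_abs_self cE
  have hcT : (0 : ℝ) ≤ cT := Nat.cast_nonneg _
  have hM0 : (0 : ℝ) ≤ M := Nat.cast_nonneg _
  have hcM : 0 ≤ (c : ℝ) * (2 * M) := by positivity
  have hA1 : 1 ≤ A := by
    rw [hA, mul_add]
    linarith
  have hl2 : Real.log 2 ≤ 1 := Num.log2_le_one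
  have hl0 : 0 ≤ Real.log 2 := Real.log_nonneg (by norm_num)
  obtain ⟨ε, hε, hε1, hpar⟩ := Num.params c hA1 K M hlam hε'
  refine ⟨ε, hε, fun J δ₁ hδ₁ => ?_⟩
  obtain ⟨δ₀, hδ₀, hpar⟩ := hpar J δ₁ hδ₁
  refine ⟨δ₀, hδ₀, ?_⟩
  intro Ω _ P C m n h q b1 b2 B H hq hm1 hm2 hb1 hb2 hb2'
  have hm : 1 ≤ m := by
    rcases Nat.eq_zero_or_pos m with h0 | h0
    · rw [h0] at hm1
      norm_num at hm1
    · exact h0
  obtain ⟨κ, g, p, L1, K0, β, ρ, w1, w2, w3, w4, w5, w6, w7, w8, w9, w10, w11, w12, w13, w14, w15⟩ :=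
    hpar m n h q b1 b2 B.card (steps_le P H hq) hq hm1 hm2 hb1 hb2 hb2' H.cardB
      (by exact_mod_cast card_le P H hm)
  have hBn : B.Nonempty := Finset.card_pos.1 w3
  have hn0 : (0 : ℝ) ≤ n := Nat.cast_nonneg _
  have hρ : (cT : ℝ) * B.card * (n + 1) / 2 ^ κ ≤ ρ := by
    rw [w11]
    have e1 : (cT : ℝ) ≤ A := by
      rw [hA, mul_add]
      linarith
    have e2 : (n : ℝ) + 1 ≤ (n + 1) ^ 3 := by
      have : (1 : ℝ) ≤ n + 1 := by linarith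
      exact le_self_pow₀ this (by norm_num)
    gcongr
  have hρ1 : ρ * (n + 1) ≤ 1 := by
    refine le_trans (le_mul_of_one_le_right (by positivity) ?_) w14
    have : (0 : ℝ) ≤ h := Nat.cast_nonneg _
    have : (0 : ℝ) ≤ q := Nat.cast_nonneg _
    linarith
  have hends := H.ends
  have hexp := mic_expl P (C := C) (B := B) (cT := cT) (cE := cE) (κ := κ) (g := g) (p := p)
    (L1 := L1) (K0 := K0) (β := β) (ρ := ρ) hS hc (fun κ hκ => by
      have hT1 := hT P { C with κ := κ } n h q (B.image fun x => m * x) (by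
        intro b hb
        rw [Finset.mem_image] at hb
        obtain ⟨x, hx, rfl⟩ := hb
        have h5 := H.hB x hx
        have h6 := hκ x hx
        exact ⟨by change C.a n + m * x ≤ h; omega, by change C.r n + m * x ≤ q; omega, h6⟩)
      obtain ⟨o1, o2, o3, u1, u2, u3, u4, u5, u6, hamb⟩ := hT1
      refine ⟨o1, o2, o3, u1, u2, u3, u4, u5, u6, fun x hx j hj => ?_⟩
      refine (hamb (m * x) (Finset.mem_image_of_mem _ hx) j hj).trans ?_
      have e1 : (((B.image fun x => m * x).card : ℕ) : ℝ) ≤ B.card := by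
        exact_mod_cast Finset.card_image_le
      change (cT : ℝ) * ((B.image fun x => m * x).card : ℕ) * (n + 1) / 2 ^ κ ≤ _
      gcongr)
    (fun κ b o1 o2 o3 u1 u2 u3 u4 u5 u6 v1 v2 v3 v4 =>
      hE P { C with κ := κ } n h q b o1 o2 o3 u1 u2 u3 u4 u5 u6 v1 v2 v3 v4)
    H hm hBn w4 w5 w6 w7 (by omega) (by omega) (by omega) hρ hρ1
  refine le_trans ?_ hexp
  have e0 : (β : ℝ) * (L1 * (m * Real.log 2)) = β * (L1 * m * Real.log 2) := by ring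
  rw [e0]
  set V : ℝ := ((n / L1 + 1 : ℕ) : ℝ) with hV
  have hV0 : 0 ≤ V := Nat.cast_nonneg _
  set R1 : ℝ := Real.sqrt (n * (L1 * (p * Real.log 2))) with hR1
  set R2 : ℝ := Real.sqrt (β * (L1 * m * Real.log 2) / B.card) with hR2
  have hR10 : 0 ≤ R1 := Real.sqrt_nonneg _
  have hR20 : 0 ≤ R2 := Real.sqrt_nonneg _
  set se := Real.sqrt ε with hse
  have hse0 : 0 ≤ se := Real.sqrt_nonneg _
  have hr4 : 0 ≤ (n : ℝ) * ρ ^ (1 / 4 : ℝ) := mul_nonneg hn0 (Real.rpow_nonneg w12 _)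
  have hm0 : (0 : ℝ) ≤ m := Nat.cast_nonneg _
  have hL0 : (0 : ℝ) ≤ L1 := Nat.cast_nonneg _
  have t1 : 2 * Real.log 2 * m * (V * (K0 * (M + J + 2)) + ε * n) ≤
      A * (m * (V * (K0 * (M + J + 2)) + L1)) + 2 * (ε * (n * m)) := by
    have x1 : 0 ≤ (m : ℝ) * (V * (K0 * (M + J + 2))) := by positivity
    have x2 : 0 ≤ ε * (n * m) := by positivity
    have x3 : 0 ≤ (m : ℝ) * L1 := by positivity
    have x4 : 2 * Real.log 2 ≤ A := by linarith
    calc 2 * Real.log 2 * m * (V * (K0 * (M + J + 2)) + ε * n)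
        = 2 * Real.log 2 * (m * (V * (K0 * (M + J + 2)))) + 2 * Real.log 2 * (ε * (n * m)) := by
          ring
      _ ≤ A * (m * (V * (K0 * (M + J + 2)))) + 2 * (ε * (n * m)) :=
          add_le_add (mul_le_mul_of_nonneg_right x4 x1)
            (mul_le_mul_of_nonneg_right (by linarith) x2)
      _ ≤ A * (m * (V * (K0 * (M + J + 2))) + m * L1) + 2 * (ε * (n * m)) := by
          have := mul_nonneg (by linarith : 0 ≤ A) x3
          linarith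
      _ = _ := by ring
  have t3 : (c : ℝ) * m * (2 * M * ε * n + n * (12 * se + 3 * ρ)) + 2 * (ε * (n * m)) +
      2 * m * Real.log 2 * (ε * n) ≤
      A * (ε * (n * m)) + A * (n * m) * se + A * (n * m) * ρ := by
    have x1 : 0 ≤ ε * (n * m) := by positivity
    have x2 : 0 ≤ (n : ℝ) * m * se := by positivity
    have x3 : 0 ≤ (n : ℝ) * m * ρ := by positivity
    have x4 : (c : ℝ) * (2 * M) + 4 ≤ A := by
      rw [hA, mul_add]
      linarith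
    have x5 : (c : ℝ) * 12 ≤ A := by
      rw [hA, mul_add]
      linarith
    have x6 : (c : ℝ) * 3 ≤ A := by linarith
    calc (c : ℝ) * m * (2 * M * ε * n + n * (12 * se + 3 * ρ)) + 2 * (ε * (n * m)) +
          2 * m * Real.log 2 * (ε * n)
        = ((c : ℝ) * (2 * M) + 2 + 2 * Real.log 2) * (ε * (n * m)) +
          (c : ℝ) * 12 * (n * m * se) + (c : ℝ) * 3 * (n * m * ρ) := by ring
      _ ≤ A * (ε * (n * m)) + A * (n * m * se) + A * (n * m * ρ) :=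
          add_le_add (add_le_add (mul_le_mul_of_nonneg_right (by linarith) x1)
            (mul_le_mul_of_nonneg_right x5 x2)) (mul_le_mul_of_nonneg_right x6 x3)
      _ = _ := by ring
  have t2 : (c : ℝ) * n ≤ A * n := by
    refine mul_le_mul_of_nonneg_right ?_ hn0
    rw [hA, mul_add]
    linarith
  have t5 : (2 : ℝ) ^ (c * g) * (R1 + n * R2) ≤
      A * (2 : ℝ) ^ (c * g) * (R1 + n * R2 + n * ρ ^ (1 / 4 : ℝ)) := by
    have x1 : (0 : ℝ) < (2 : ℝ) ^ (c * g) := by positivity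
    have x2 : 0 ≤ R1 + n * R2 := by positivity
    calc (2 : ℝ) ^ (c * g) * (R1 + n * R2) ≤ A * (2 : ℝ) ^ (c * g) * (R1 + n * R2) :=
          mul_le_mul_of_nonneg_right (le_mul_of_one_le_left x1.le hA1) x2
      _ ≤ _ := mul_le_mul_of_nonneg_left (by linarith) (by positivity)
  have t6 : (b2 : ℝ) * Real.log 2 ≤ A * b2 := by
    have x1 : (0 : ℝ) ≤ b2 := Nat.cast_nonneg _
    rw [mul_comm]
    exact mul_le_mul_of_nonneg_right (by linarith) x1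
  have t7 : cE ≤ A := by
    rw [hA, mul_add]
    linarith
  linarith

/-- **the micro part** -/
theorem pMic : PMic := by
  obtain ⟨c, hS⟩ := pSat
  obtain ⟨cT, hT⟩ := H715.pTrn
  obtain ⟨cE, hE⟩ := H172.pEnds
  exact pMic_of (c := c + 1) (Nat.le_add_left 1 c) (PSatC.mono hS (Nat.le_succ c)) hT hE

end Vale.Agent.P127.U.H833
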