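import Vale.Agent.P127.U.Mic.Nond
import Vale.Agent.P127.U.Mic.Count

/-!
# P127 / U / H833 : MIC, part A: entropies of the path, the translated path (helper833)

* `hc_T_le` : the entropy of some steps of the path.
* `hc_e_le` : the entropy of a window of `y1`.
* `Sat.mono`, `sat_triv` : saturation with a larger error, trivial saturation.
* `ln_tk` : the line is a function of the translated line.
* `sum_Ioc_windows` : sums over the counted steps.
-/

set_option autoImplicit false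

namespace Vale.Agent.P127.U.H833

open Finset Vale.Agent.P127 Vale.Agent.P127.Stk Vale.Agent.P127.U.CellD Vale.Agent.P127.U.Mic

variable {Ω : Type} [Fintype Ω] (P : Law Ω)

/-- the entropy of some steps of the path -/
theorem hc_T_le (C : Pth Ω) {i j : ℕ} (h : i ≤ j) :
    hc P (C.T j) (C.T i) ≤ (((C.a j + C.r j) - (C.a i + C.r i) : ℕ) : ℝ) * Real.log 2 := by
  have ha := C.ha h
  have hr := C.hr h
  have h1 : hc P (C.T j) (C.T i) =
      hc P (fun ω => fl1 (C.a j) (C.t ω)) (C.T i) +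
        hc P (fun ω => fl1 (C.r j) (C.v ω)) (fun ω => (fl1 (C.a j) (C.t ω), C.T i ω)) :=
    hc_pair P (fun ω => fl1 (C.a j) (C.t ω)) (fun ω => fl1 (C.r j) (C.v ω)) (C.T i)
  have h2 : hc P (fun ω => fl1 (C.a j) (C.t ω)) (C.T i) ≤
      ((C.a j - C.a i : ℕ) : ℝ) * Real.log 2 := by
    refine le_trans (hc_mono_right P _ (Y := fun ω => (fl1 (C.a i) (C.t ω), ())) ?_)
      (hc_fl1_digits_le P ha C.t (fun _ => ()))
    intro ω ω' _ _ e
    have e1 : fl1 (C.a i) (C.t ω) = fl1 (C.a i) (C.t ω') := congrArg Prod.fst e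
    exact Prod.ext e1 rfl
  have h3 : hc P (fun ω => fl1 (C.r j) (C.v ω)) (fun ω => (fl1 (C.a j) (C.t ω), C.T i ω)) ≤
      ((C.r j - C.r i : ℕ) : ℝ) * Real.log 2 := by
    refine le_trans (hc_mono_right P _ (Y := fun ω => (fl1 (C.r i) (C.v ω), ())) ?_)
      (hc_fl1_digits_le P hr C.v (fun _ => ()))
    intro ω ω' _ _ e
    have e1 := congrArg Prod.snd (congrArg Prod.snd e)
    exact Prod.ext e1 rfl
  have h4 : ((C.a j - C.a i : ℕ) : ℝ) + ((C.r j - C.r i : ℕ) : ℝ) =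
      (((C.a j + C.r j) - (C.a i + C.r i) : ℕ) : ℝ) := by
    have : (C.a j - C.a i) + (C.r j - C.r i) = (C.a j + C.r j) - (C.a i + C.r i) := by omega
    exact_mod_cast this
  rw [h1, ← h4]
  linarith

/-- the entropy of the window of `y1` -/
theorem hc_e_le (C : Pth Ω) (b p : ℕ) :
    hc P (fun ω => fl1 (b + p) (C.y1 ω)) (C.J 0 b) ≤ p * Real.log 2 := by
  have h := hc_fl1_digits_le P (Nat.le_add_right b p) C.y1 (fun _ => ())
  rw [Nat.add_sub_cancel_left] at h
  refine le_trans (hc_mono_right P _ ?_) h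
  intro ω ω' _ _ e
  have h1 := Pth.J_iff.1 e 0 le_rfl
  unfold Pth.base at h1
  simp only [Prod.mk.injEq] at h1
  exact Prod.ext h1.2.1 rfl

variable {P} in
theorem Sat.mono {C : Pth Ω} {m b j i' : ℕ} {e e' : ℝ} (h : Sat P C m b j i' e) (he : e ≤ e') :
    Sat P C m b j i' e' := by
  unfold Sat at *
  linarith

theorem sat_triv (C : Pth Ω) (m b j i' : ℕ) : Sat P C m b j i' (2 * m * Real.log 2) := by
  unfold Sat
  rw [sub_self]
  exact hc_nonneg P _ _

omit [Fintype Ω] in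
/-- the line is a function of the translated line -/
theorem ln_tk {C : Pth Ω} {k : ℕ} {o1 o2 o3 : ℝ} {ω ω' : Ω}
    (h : (tk C o1 o2 o3 k).ln ω = (tk C o1 o2 o3 k).ln ω') : C.ln ω = C.ln ω' := by
  unfold Pth.ln tk trn at h
  simp only [Prod.mk.injEq, add_left_inj] at h
  unfold Pth.ln
  simp only [h.1, h.2.1, h.2.2.1, h.2.2.2]

/-- sums over the counted steps -/
theorem sum_Ioc_windows (f : ℕ → ℝ) (hf : ∀ j, 0 ≤ f j) (σ k : ℕ → ℕ)
    (h : ∀ v, σ v ≤ k v ∧ k v ≤ σ (v + 1)) (V : ℕ) :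
    ∑ v ∈ range V, ∑ j ∈ Ioc (σ v) (k v), f j ≤ ∑ j ∈ Ioc (σ 0) (σ V), f j := by
  have hσ : Monotone σ := monotone_nat_of_le_succ fun v => (h v).1.trans (h v).2
  induction V with
  | zero => simp
  | succ V ih =>
    rw [Finset.sum_range_succ]
    have h4 : ∑ j ∈ Ioc (σ 0) (σ (V + 1)), f j =
        ∑ j ∈ Ioc (σ 0) (σ V), f j + ∑ j ∈ Ioc (σ V) (σ (V + 1)), f j :=
      (Finset.sum_Ioc_consecutive f (hσ (Nat.zero_le V)) (hσ (Nat.le_succ V))).symm
    have h5 : ∑ j ∈ Ioc (σ V) (k V), f j ≤ ∑ j ∈ Ioc (σ V) (σ (V + 1)), f j :=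
      Finset.sum_le_sum_of_subset_of_nonneg (Finset.Ioc_subset_Ioc_right (h V).2) fun j _ _ => hf j
    linarith

end Vale.Agent.P127.U.H833
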