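import Vale.Agent.P127.U.H833.MicA
import Vale.Agent.P127.U.H833.Avg
import Vale.Agent.P127.U.Mic.Num

/-!
# P127 / U / H833 : MIC, the explicit inequality (helper833)

`mic_core` : from `Hyp`, the M-step (`PSat` with the constant `c`), windows of `L1` steps, and a bound `ρ`
of the ambiguities of the translated path: one base level `m x`, `x ∈ B`, such that the steps are paid by
`I(line ; J n | J 0)`, with an explicit error.
-/

set_option autoImplicit false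

namespace Vale.Agent.P127.U.H833

open Finset Vale.Agent.P127 Vale.Agent.P127.Stk Vale.Agent.P127.U.CellD Vale.Agent.P127.U.Mic

open Vale.Agent.P127.U.Cell (tele mi_nested)

/-- `PSat` with the constant `c` -/
def PSatC (c : ℕ) : Prop := ∀ {Ω : Type} [Fintype Ω] (P : Law Ω) (C : Pth Ω)
    (m b b' g p j i' : ℕ) (ι₁ ι₂ : ℝ),
    1 ≤ m → m ≤ g → c * g ≤ p → j ≤ i' → 2 * C.κ + m + p ≤ b → b + 2 * C.κ + p ≤ b' →
    C.a j + C.κ + p ≤ C.a i' → C.r j + C.κ + p ≤ C.r i' →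
    mi P (fun ω => fl1 (b + p) (C.y1 ω)) (C.J i' b) (C.J j b) ≤ ι₁ →
    mi P (C.T i') (C.J j b') (C.J j b) ≤ ι₂ →
    Sat P C m b j i'
      (c + c * m * (colp P (fun ω => fl1 (C.a j + g) (C.t ω)) (C.J j b) +
        colp P (fun ω => fl1 (C.r j + g) (C.v ω)) (C.J j b) +
        colp P (fun ω => fl1 (b + g) (C.y1 ω)) (C.J j b)) +
        (2 : ℝ) ^ (c * g) * (Real.sqrt ι₁ + Real.sqrt ι₂))

section

variable {Ω : Type} [Fintype Ω] (P : Law Ω) {C : Pth Ω} {m n : ℕ}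

/-- the information of `y1` is paid once for each of `L1` steps -/
theorem sum_I1 (C' : Pth Ω) (L1 p b : ℕ) :
    ∑ j ∈ Ioc 0 n, mi P (fun ω => fl1 (b + p) (C'.y1 ω)) (C'.J (j + L1) b) (C'.J j b) ≤
      L1 * (p * Real.log 2) := by
  have h1 : ∑ j ∈ Ioc 0 n, mi P (fun ω => fl1 (b + p) (C'.y1 ω)) (C'.J (j + L1) b) (C'.J j b) ≤
      ∑ j ∈ range (n + 1),
        mi P (fun ω => fl1 (b + p) (C'.y1 ω)) (C'.J (j + L1) b) (C'.J j b) := by
    refine Finset.sum_le_sum_of_subset_of_nonneg ?_ fun j _ _ => mi_nonneg P _ _ _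
    intro j hj
    rw [Finset.mem_Ioc] at hj
    rw [Finset.mem_range]
    omega
  refine h1.trans ((tele P (fun j => C'.J j b) (fun i j hij => (dat P C' b).CC hij)
    (fun ω => fl1 (b + p) (C'.y1 ω)) (n + 1) L1).trans ?_)
  exact mul_le_mul_of_nonneg_left (hc_e_le P C' b p) (Nat.cast_nonneg _)

/-- a longer window has more information -/
theorem mi_le_window (C' : Pth Ω) (L1 p b : ℕ) {j i' : ℕ} (h1 : j ≤ i') (h2 : i' ≤ j + L1) :
    mi P (fun ω => fl1 (b + p) (C'.y1 ω)) (C'.J i' b) (C'.J j b) ≤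
      mi P (fun ω => fl1 (b + p) (C'.y1 ω)) (C'.J (j + L1) b) (C'.J j b) := by
  rw [mi_nested P _ ((dat P C' b).CC h1), mi_nested P _ ((dat P C' b).CC (Nat.le_add_right _ _))]
  have := hc_mono_right P (fun ω => fl1 (b + p) (C'.y1 ω)) ((dat P C' b).CC h2)
  linarith

/-- the information of the path is paid once for each of `β` base levels -/
theorem sum_I2 {C' : Pth Ω} (hB : Blk C' m n) (B : Finset ℕ) (β L1 : ℕ) {j i' : ℕ} (h1 : j ≤ i')
    (h2 : i' ≤ j + L1) (h3 : i' ≤ n) :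
    ∑ x ∈ B, mi P (C'.T i') (C'.J j (m * (x + β))) (C'.J j (m * x)) ≤
      β * (L1 * (m * Real.log 2)) := by
  have a1 : ∑ x ∈ B, mi P (C'.T i') (C'.J j (m * (x + β))) (C'.J j (m * x)) ≤
      ∑ x ∈ range (B.sup id + 1),
        mi P (C'.T i') (C'.J j (m * (x + β))) (C'.J j (m * x)) := by
    refine Finset.sum_le_sum_of_subset_of_nonneg ?_ fun j _ _ => mi_nonneg P _ _ _
    intro x hx
    rw [Finset.mem_range]
    exact Nat.lt_succ_of_le (Finset.le_sup (f := id) hx)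
  refine a1.trans ((tele P (fun x => C'.J j (m * x)) (fun x y hxy => ?_)
    (C'.T i') (B.sup id + 1) β).trans ?_)
  · exact fun _ _ _ _ e => Pth.J_mono le_rfl (Nat.mul_le_mul_left m hxy) e
  refine mul_le_mul_of_nonneg_left ?_ (Nat.cast_nonneg _)
  have a2 : hc P (C'.T i') (C'.J j (m * 0)) ≤ hc P (C'.T i') (C'.T j) :=
    hc_mono_right P _ fun _ _ _ _ e => Pth.J_T e
  refine a2.trans ((hc_T_le P C' h1).trans ?_)
  have a3 : (C'.a i' + C'.r i') - (C'.a j + C'.r j) ≤ L1 * m := by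
    rw [hB.sum_eq h3, hB.sum_eq (h1.trans h3)]
    have e1 : m * i' ≤ m * (j + L1) := Nat.mul_le_mul_left _ h2
    have e2 : m * (j + L1) = m * j + L1 * m := by ring
    omega
  have a4 : (((C'.a i' + C'.r i') - (C'.a j + C'.r j) : ℕ) : ℝ) ≤ (L1 : ℝ) * m := by
    exact_mod_cast a3
  have a5 : (0 : ℝ) ≤ Real.log 2 := Real.log_nonneg (by norm_num)
  calc _ ≤ ((L1 : ℝ) * m) * Real.log 2 := mul_le_mul_of_nonneg_right a4 a5
    _ = _ := by ring

/-- **MIC, the explicit inequality** -/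
theorem mic_core {c : ℕ} (hS : PSatC c) (hc : 1 ≤ c) {h q M J b1 b2 : ℕ} {lam ε : ℝ} {B : Finset ℕ}
    (H : Hyp P C m n h q M J b1 b2 lam ε B) (hm : 1 ≤ m) (hBn : B.Nonempty) (o1 o2 o3 : ℝ)
    {κ g p L1 K0 β : ℕ} (hg : g = (M + 1) * m) (hp : c * g ≤ p) (hL : 1 ≤ L1) (hK : 1 ≤ K0)
    (h1 : κ + p ≤ K0 * m) (h3 : 2 * κ + p ≤ β * m) (h4 : 2 * κ + m + p ≤ b1) {ρ : ℝ}
    (hρ : ∀ x ∈ B, ∀ j ≤ n, amb P (tk C o1 o2 o3 κ) h q (m * x) j ≤ ρ) :
    ∃ x ∈ B, (2 * ((C.a n : ℝ) - C.a 0) + ((C.r n : ℝ) - C.r 0)) * Real.log 2 ≤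
      mi P C.ln ((tk C o1 o2 o3 κ).J n (m * x)) ((tk C o1 o2 o3 κ).J 0 (m * x)) +
        (2 * Real.log 2 * m * ((n / L1 + 1 : ℕ) * (K0 * (M + J + 2)) + ε * n) + c * n +
          c * m * (2 * M * ε * n + n * (12 * Real.sqrt ε + 3 * ρ)) +
          2 * m * Real.log 2 * (ε * n) +
          (2 : ℝ) ^ (c * g) * (Real.sqrt (n * (L1 * (p * Real.log 2))) +
            n * Real.sqrt (β * (L1 * (m * Real.log 2)) / B.card))) := by
  classical
  set C' := tk C o1 o2 o3 κ with hC'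
  have hlog : (0 : ℝ) ≤ Real.log 2 := Real.log_nonneg (by norm_num)
  have hblk' : Blk C' m n := H.blk
  obtain ⟨k, k1, k2, k3⟩ := Num.windows (M := M) hm H.blk H.forced hK hL
  have hlev0 := Num.counted_levels hm H.blk hL k1
  set σ := Num.win L1 n with hσ
  set V := n / L1 + 1 with hV
  have hσ0 : σ 0 = 0 := Num.win_zero L1
  have hσV : σ V = n := Num.win_last hL
  have hσm : ∀ v, σ v ≤ σ (v + 1) := fun v => Num.win_mono
  have hσn : ∀ v, σ v ≤ n := fun v => Num.win_le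
  have hσL : ∀ v, σ (v + 1) ≤ σ v + L1 := fun v => Num.win_succ_le
  set St : Finset (Σ _ : ℕ, ℕ) := (range V).sigma fun v => Ioc (σ v) (k v) with hSt
  have hmem : ∀ x : (Σ _ : ℕ, ℕ), x ∈ St ↔ x.1 < V ∧ σ x.1 < x.2 ∧ x.2 ≤ k x.1 := by
    intro x
    rw [hSt, Finset.mem_sigma, Finset.mem_range, Finset.mem_Ioc]
  have hsum : ∀ f : ℕ → ℕ → ℝ, ∑ x ∈ St, f x.1 x.2 =
      ∑ v ∈ range V, ∑ j ∈ Ioc (σ v) (k v), f v j := by
    intro f
    rw [hSt, Finset.sum_sigma]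
  have hle : ∀ f : ℕ → ℝ, (∀ j, 0 ≤ f j) → ∑ x ∈ St, f x.2 ≤ ∑ j ∈ Ioc 0 n, f j := by
    intro f hf
    rw [hsum (fun _ j => f j)]
    have := sum_Ioc_windows f hf σ k k1 V
    rwa [hσ0, hσV] at this
  have hcard : (St.card : ℝ) ≤ n := by
    have h5 := hle (fun _ => 1) (fun _ => zero_le_one)
    simpa using h5
  -- levels of a counted step
  have hlev : ∀ x ∈ St, x.2 ≤ σ (x.1 + 1) ∧ σ (x.1 + 1) ≤ x.2 + L1 ∧
      C.a x.2 + K0 * m ≤ C.a (σ (x.1 + 1)) ∧ C.r x.2 + K0 * m ≤ C.r (σ (x.1 + 1)) := by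
    intro x hx
    obtain ⟨e1, e2, e3⟩ := (hmem x).1 hx
    obtain ⟨e4, e5⟩ := k2 x.1 (lt_of_lt_of_le e2 e3)
    have e6 := C.ha e3
    have e7 := C.hr e3
    have e8 := hσL x.1
    exact ⟨e3.trans (k1 x.1).2, by omega, by omega, by omega⟩
  -- the two informations
  set I₁ : (Σ _ : ℕ, ℕ) → ℕ → ℝ := fun x y =>
    mi P (fun ω => fl1 (m * y + p) (C'.y1 ω)) (C'.J (σ (x.1 + 1)) (m * y)) (C'.J x.2 (m * y))
    with hI₁
  set I₂ : (Σ _ : ℕ, ℕ) → ℕ → ℝ := fun x y =>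
    mi P (C'.T (σ (x.1 + 1))) (C'.J x.2 (m * (y + β))) (C'.J x.2 (m * y)) with hI₂
  have hA₁ : ∀ y ∈ B, ∑ x ∈ St, I₁ x y ≤ L1 * (p * Real.log 2) := by
    intro y _
    refine le_trans (Finset.sum_le_sum fun x hx =>
      mi_le_window P C' L1 p (m * y) (hlev x hx).1 (hlev x hx).2.1) ?_
    refine (hle (fun j => mi P (fun ω => fl1 (m * y + p) (C'.y1 ω)) (C'.J (j + L1) (m * y))
      (C'.J j (m * y))) (fun j => mi_nonneg P _ _ _)).trans ?_
    exact sum_I1 P C' L1 p (m * y)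
  have hA₂ : ∀ x ∈ St, ∑ y ∈ B, I₂ x y ≤ β * (L1 * (m * Real.log 2)) := by
    intro x hx
    exact sum_I2 P hblk' B β L1 (hlev x hx).1 (hlev x hx).2.1 (hσn _)
  obtain ⟨y, hy, hy1, hy2⟩ := exists_b B hBn St I₁ I₂ (fun _ _ _ _ => mi_nonneg P _ _ _)
    (fun _ _ _ _ => mi_nonneg P _ _ _) hA₁ hA₂
  refine ⟨y, hy, ?_⟩
  have hyb := H.hB y hy
  set b := m * y with hb
  have hmb : m ≤ b := by omega
  -- few steps are lost
  have hKM : M ≤ K0 := by
    have e1 : M * m ≤ K0 * m := by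
      have e2 : (M + 1) * m = M * m + m := by ring
      have e3 : 1 * g ≤ c * g := Nat.mul_le_mul_right g hc
      omega
    exact le_of_mul_le_mul_right e1 (by omega)
  have hjM : ∀ x ∈ St, x.2 + M ≤ n ∧ x.2 < n := by
    intro x hx
    obtain ⟨e1, _, e3, e4⟩ := hlev x hx
    have e5 := hσn (x.1 + 1)
    have e6 := H.blk.sum_eq e5
    have e7 := H.blk.sum_eq (e1.trans e5)
    have e8 := C.hr e1
    have e9 : m * (x.2 + K0) ≤ m * σ (x.1 + 1) := by
      have : m * (x.2 + K0) = m * x.2 + K0 * m := by ring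
      omega
    have e10 := le_of_mul_le_mul_left e9 (by omega)
    omega
  -- the error of a step
  set cl : ℕ → ℝ := fun j => colp P (fun ω => fl1 (C.a j + (M + 1) * m) (C.t ω)) (C'.J j b) +
    colp P (fun ω => fl1 (C.r j + (M + 1) * m) (C.v ω)) (C'.J j b) with hcl
  have hcl0 : ∀ j, 0 ≤ cl j := fun j => add_nonneg (colp_nonneg P _ _) (colp_nonneg P _ _)
  have hmg : m ≤ g := by
    rw [hg]
    exact Nat.le_mul_of_pos_left _ (Nat.succ_pos _)
  have hcy : ∀ j ≤ n, colp P (fun ω => fl1 (b + g) (C.y1 ω)) (C'.J j b) ≤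
      12 * Real.sqrt ε + 3 * ρ := by
    intro j hj
    refine (colp_y8 P H o1 o2 o3 κ hy j g hmg).trans ?_
    have h6 := hρ y hy j hj
    linarith
  have hy0 : 0 ≤ 12 * Real.sqrt ε + 3 * ρ := (colp_nonneg P _ _).trans (hcy 0 (Nat.zero_le n))
  set er : ℕ → ℕ → ℝ := fun v j => if C.a j < C.a (j + M) then
      c + c * m * (cl j + (12 * Real.sqrt ε + 3 * ρ)) +
        (2 : ℝ) ^ (c * g) * (Real.sqrt (I₁ ⟨v, j⟩ y) + Real.sqrt (I₂ ⟨v, j⟩ y))
    else 2 * m * Real.log 2 with her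
  have hsat : ∀ v < V, ∀ j, σ v < j → j ≤ k v → Sat P C' m b j (σ (v + 1)) (er v j) := by
    intro v hv j hj1 hj2
    obtain ⟨e1, e2, e3, e4⟩ := hlev ⟨v, j⟩ ((hmem _).2 ⟨hv, hj1, hj2⟩)
    dsimp only at e1 e2 e3 e4
    have hjn : j ≤ n := e1.trans (hσn _)
    rw [her]
    dsimp only
    by_cases hG : C.a j < C.a (j + M)
    · rw [if_pos hG]
      have hb' : b + 2 * κ + p ≤ m * (y + β) := by
        have : m * (y + β) = m * y + β * m := by ring
        omega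
      have hs := hS P C' m b (m * (y + β)) g p j (σ (v + 1)) (I₁ ⟨v, j⟩ y) (I₂ ⟨v, j⟩ y)
        hm hmg hp e1 (by change 2 * κ + m + p ≤ b; omega) hb'
        (by change C.a j + κ + p ≤ C.a (σ (v + 1)); omega)
        (by change C.r j + κ + p ≤ C.r (σ (v + 1)); omega) le_rfl le_rfl
      refine Sat.mono hs ?_
      change (c : ℝ) + c * m * (colp P (fun ω => fl1 (C.a j + g) (C.t ω)) (C'.J j b) +
          colp P (fun ω => fl1 (C.r j + g) (C.v ω)) (C'.J j b) +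
          colp P (fun ω => fl1 (b + g) (C.y1 ω)) (C'.J j b)) +
          (2 : ℝ) ^ (c * g) * (Real.sqrt (I₁ ⟨v, j⟩ y) + Real.sqrt (I₂ ⟨v, j⟩ y)) ≤ _
      rw [hcl, ← hg]
      dsimp only
      gcongr
      exact hcy j hjn
    · rw [if_neg hG]
      exact sat_triv P C' m b j (σ (v + 1))
  -- one window
  have hwin : ∀ v < V, (2 * ((C.a (k v) : ℝ) - C.a (σ v)) + ((C.r (k v) : ℝ) - C.r (σ v))) *
      Real.log 2 - ∑ j ∈ Ioc (σ v) (k v), er v j ≤
      mi P C'.ln (C'.J (σ (v + 1)) b) (C'.J (σ v) b) := by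
    intro v hv
    rcases (k1 v).1.eq_or_lt with hk | hk
    · rw [← hk]
      simpa using mi_nonneg P C'.ln (C'.J (σ (v + 1)) b) (C'.J (σ v) b)
    · obtain ⟨e4, e5⟩ := k2 v hk
      refine count_win (P := P) (C := C') (hblk'.mono ((k1 v).2.trans (hσn _))) (k1 v).1 (k1 v).2
        hmb ?_ ?_ (hsat v hv)
      · change C.a (k v) + κ ≤ C.a (σ (v + 1))
        omega
      · change C.a (k v) + C.r (k v) + 2 * κ ≤ C.a (σ (v + 1)) + C.r (σ (v + 1))
        omega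
  have htot := (dat P C' b).total σ hσm V
  rw [hσ0, hσV] at htot
  -- the line
  have hmi : mi P C'.ln (C'.J n b) (C'.J 0 b) = mi P C.ln (C'.J n b) (C'.J 0 b) := by
    unfold mi
    rw [hc_congr P (X := C'.ln) (X' := C.ln) (Y := C'.J 0 b) (Y' := C'.J 0 b)
        (fun _ _ _ _ e => tk_ln (congrArg Prod.fst e)) (fun _ _ _ _ e => ln_tk (congrArg Prod.fst e))
        (fun _ _ _ _ e => e) (fun _ _ _ _ e => e),
      hc_congr P (X := C'.ln) (X' := C.ln) (Y := fun ω => (C'.J n b ω, C'.J 0 b ω))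
        (Y' := fun ω => (C'.J n b ω, C'.J 0 b ω))
        (fun _ _ _ _ e => tk_ln (congrArg Prod.fst e)) (fun _ _ _ _ e => ln_tk (congrArg Prod.fst e))
        (fun _ _ _ _ e => e) (fun _ _ _ _ e => e)]
  -- the sum of the errors
  set f2 : ℕ → ℝ := fun j => if j + M ≤ n ∧ C.a j < C.a (j + M) then cl j else 0 with hf2
  set f3 : ℕ → ℝ := fun j => if j < n ∧ C.a (j + M) = C.a j then 2 * m * Real.log 2 else 0
    with hf3
  have hf2s : ∑ x ∈ St, f2 x.2 ≤ M * (2 * ε * n) := by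
    refine (hle f2 (fun j => by rw [hf2]; dsimp only; split_ifs; exacts [hcl0 j, le_rfl])).trans ?_
    rw [hf2, ← Finset.sum_filter]
    exact sum_tv P H o1 o2 o3 κ b _ fun j hj => (Finset.mem_filter.1 hj).2
  have hf3s : ∑ x ∈ St, f3 x.2 ≤ 2 * m * Real.log 2 * (ε * n) := by
    refine (hle f3 (fun j => by rw [hf3]; dsimp only; split_ifs; exacts [by positivity, le_rfl])).trans ?_
    rw [hf3, ← Finset.sum_filter, Finset.sum_const, nsmul_eq_mul, mul_comm]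
    refine mul_le_mul_of_nonneg_left (le_trans ?_ H.runs) (by positivity)
    have : ((Ioc 0 n).filter fun j => j < n ∧ C.a (j + M) = C.a j) ⊆
        (range n).filter fun j => C.a (j + M) = C.a j := by
      intro j hj
      rw [Finset.mem_filter] at hj ⊢
      exact ⟨Finset.mem_range.2 hj.2.1, hj.2.2⟩
    exact_mod_cast Finset.card_le_card this
  have hG0 : (0 : ℝ) ≤ (2 : ℝ) ^ (c * g) := by positivity
  have herr : ∑ x ∈ St, er x.1 x.2 ≤
      c * n + c * m * (2 * M * ε * n + n * (12 * Real.sqrt ε + 3 * ρ)) +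
        2 * m * Real.log 2 * (ε * n) +
        (2 : ℝ) ^ (c * g) * (Real.sqrt (n * (L1 * (p * Real.log 2))) +
            n * Real.sqrt (β * (L1 * (m * Real.log 2)) / B.card)) := by
    have g1 : ∀ x ∈ St, er x.1 x.2 ≤ (c + c * m * (12 * Real.sqrt ε + 3 * ρ)) +
        c * m * f2 x.2 + f3 x.2 +
        (2 : ℝ) ^ (c * g) * (Real.sqrt (I₁ x y) + Real.sqrt (I₂ x y)) := by
      intro x hx
      obtain ⟨e1, e2⟩ := hjM x hx
      have e3 : 0 ≤ (2 : ℝ) ^ (c * g) * (Real.sqrt (I₁ x y) + Real.sqrt (I₂ x y)) := by positivity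
      have e4 : (0 : ℝ) ≤ c + c * m * (12 * Real.sqrt ε + 3 * ρ) := by positivity
      rw [her, hf2, hf3]
      dsimp only
      by_cases hG : C.a x.2 < C.a (x.2 + M)
      · rw [if_pos hG, if_pos ⟨e1, hG⟩, if_neg (fun h => by omega)]
        have e5 : (⟨x.1, x.2⟩ : (Σ _ : ℕ, ℕ)) = x := rfl
        rw [e5]
        linarith
      · have e6 : C.a (x.2 + M) = C.a x.2 := le_antisymm (not_lt.1 hG) (C.ha (Nat.le_add_right _ _))
        rw [if_neg hG, if_neg (fun h => hG h.2), if_pos ⟨e2, e6⟩]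
        linarith
    refine (Finset.sum_le_sum g1).trans ?_
    rw [Finset.sum_add_distrib, Finset.sum_add_distrib, Finset.sum_add_distrib, Finset.sum_const,
      nsmul_eq_mul, ← Finset.mul_sum, ← Finset.mul_sum, Finset.sum_add_distrib]
    have g2 : (St.card : ℝ) * (c + c * m * (12 * Real.sqrt ε + 3 * ρ)) ≤
        n * (c + c * m * (12 * Real.sqrt ε + 3 * ρ)) :=
      mul_le_mul_of_nonneg_right hcard (by positivity)
    have g3 : (c : ℝ) * m * ∑ x ∈ St, f2 x.2 ≤ c * m * (M * (2 * ε * n)) :=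
      mul_le_mul_of_nonneg_left hf2s (by positivity)
    have g4 : Real.sqrt (St.card * (L1 * (p * Real.log 2))) ≤
        Real.sqrt (n * (L1 * (p * Real.log 2))) :=
      Real.sqrt_le_sqrt (mul_le_mul_of_nonneg_right hcard (by positivity))
    have g5 : (St.card : ℝ) * Real.sqrt (β * (L1 * (m * Real.log 2)) / B.card) ≤
        n * Real.sqrt (β * (L1 * (m * Real.log 2)) / B.card) :=
      mul_le_mul_of_nonneg_right hcard (Real.sqrt_nonneg _)
    have g6 : (2 : ℝ) ^ (c * g) * (∑ x ∈ St, Real.sqrt (I₁ x y) + ∑ x ∈ St, Real.sqrt (I₂ x y)) ≤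
        (2 : ℝ) ^ (c * g) * (Real.sqrt (n * (L1 * (p * Real.log 2))) +
            n * Real.sqrt (β * (L1 * (m * Real.log 2)) / B.card)) :=
      mul_le_mul_of_nonneg_left (by linarith) hG0
    linarith
  -- the sum over the windows
  have hall : ∑ v ∈ range V, ((2 * ((C.a (k v) : ℝ) - C.a (σ v)) + ((C.r (k v) : ℝ) - C.r (σ v))) *
      Real.log 2 - ∑ j ∈ Ioc (σ v) (k v), er v j) ≤ mi P C.ln (C'.J n b) (C'.J 0 b) := by
    rw [← hmi, ← htot]
    exact Finset.sum_le_sum fun v hv => hwin v (Finset.mem_range.1 hv)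
  rw [Finset.sum_sub_distrib, ← Finset.sum_mul, ← hsum er] at hall
  have hlost : ∑ v ∈ range V, ((σ (v + 1) - k v : ℕ) : ℝ) ≤
      (V : ℝ) * (K0 * (M + J + 2)) + ε * n := by
    have e1 : ((∑ v ∈ range V, (σ (v + 1) - k v) : ℕ) : ℝ) ≤
        ((V * (K0 * (M + J + 2)) + ((range n).filter fun i => C.a (i + M) = C.a i).card : ℕ) : ℝ) := by
      exact_mod_cast k3
    push_cast at e1
    have := H.runs
    linarith
  have hlev1 := mul_le_mul_of_nonneg_right hlev0 hlog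
  have hlost1 : 2 * (m : ℝ) * (∑ v ∈ range V, ((σ (v + 1) - k v : ℕ) : ℝ)) * Real.log 2 ≤
      2 * Real.log 2 * m * ((V : ℝ) * (K0 * (M + J + 2)) + ε * n) := by
    have e1 : (0 : ℝ) ≤ 2 * Real.log 2 * m := by positivity
    have := mul_le_mul_of_nonneg_left hlost e1
    linarith
  rw [add_mul] at hlev1
  linarith

end

end Vale.Agent.P127.U.H833
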