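import Vale.Agent.P127.U.Mic.CountW
import Vale.Agent.P127.U.H833.Avg

/-!
# P127 / U / H833 : abstract assembly of the micro part (helper833)

`mic_sum` : the per-step inequality (with the two informations F1, F2), the telescoping of both
informations, the choice of the depth `k`, and 518's `Dat.sat`.
-/

set_option autoImplicit false

namespace Vale.Agent.P127.U.H833

open Finset Vale.Agent.P127 Vale.Agent.P127.Stk Vale.Agent.P127.U.Cell Vale.Agent.P127.U.Mic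

theorem sum_windows_le (f : ℕ → ℝ) (hf : ∀ j, 0 ≤ f j) (σ ε : ℕ → ℕ) (h1 : ∀ w, σ w ≤ ε w)
    (h2 : ∀ w, ε w ≤ σ (w + 1)) (n : ℕ) :
    ∑ w ∈ range n, ∑ j ∈ Ico (σ w) (ε w), f j ≤ ∑ j ∈ range (σ n), f j := by
  have h3 : ∀ w, σ w ≤ σ (w + 1) := fun w => (h1 w).trans (h2 w)
  induction n with
  | zero => simpa using Finset.sum_nonneg fun j _ => hf j
  | succ n ih =>
    rw [Finset.sum_range_succ]
    have h4 : ∑ j ∈ range (σ (n + 1)), f j =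
        ∑ j ∈ range (σ n), f j + ∑ j ∈ Ico (σ n) (σ (n + 1)), f j := by
      rw [Finset.sum_range_add_sum_Ico _ (h3 n)]
    have h5 : ∑ j ∈ Ico (σ n) (ε n), f j ≤ ∑ j ∈ Ico (σ n) (σ (n + 1)), f j :=
      Finset.sum_le_sum_of_subset_of_nonneg (Finset.Ico_subset_Ico_right (h2 n)) fun j _ _ => hf j
    linarith

variable {Ω : Type} [Fintype Ω] {lam tau kap S : Type*}

/-- **abstract assembly of the micro part** -/
theorem mic_sum {wt : Type*} (P : Law Ω) (l : Ω → lam) (T : ℕ → Ω → tau)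
    (C : ℕ → ℕ → Ω → kap) (hD : ∀ k, Dat P l T (C k))
    (hC : ∀ k k' i, k ≤ k' → Fn P (C k i) (C k' i))
    (σ ε : ℕ → ℕ) (n L₁ β K : ℕ) (h1 : ∀ w, σ w ≤ ε w) (h2 : ∀ w, ε w ≤ σ (w + 1))
    (h3 : ∀ w, σ (w + 1) ≤ σ w + L₁)
    (W : ℕ → ℕ → ℕ → Ω → wt)
    (e : ℕ → Ω → S) (Δ : ℕ → ℝ) (κ : ℕ → ℕ → ℝ) (c G A A' KAP : ℝ) (hG : 0 ≤ G) (hc0 : 0 ≤ c)
    (B : Finset ℕ) (hB : B.Nonempty) (hBK : ∀ k ∈ B, k < K)
    (hW : ∀ k ∈ B, ∀ w < n, ∀ j, σ w ≤ j → j < ε w → Fn P (W k w j) (W k w (j + 1)))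
    (hWe : ∀ k ∈ B, ∀ w < n,
      Fn P (W k w (ε w)) (fun ω => (T (σ (w + 1)) ω, C k (σ (w + 1)) ω)))
    (hstep : ∀ k ∈ B, ∀ w < n, ∀ j, σ w ≤ j → j < ε w →
      Δ j - κ k j - c - G * (Real.sqrt (mi P (e k) (C k (σ (w + 1))) (C k j)) +
        Real.sqrt (mi P (T (σ (w + 1))) (C (k + β) j) (C k j))) ≤
      hc P (W k w (j + 1)) (fun ω => (W k w j ω, C k j ω, T (σ (w + 1)) ω)))
    (hA : ∀ k ∈ B, hc P (e k) (C k 0) ≤ A)
    (hA' : ∀ j, hc P (T (j + L₁)) (T j) ≤ A')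
    (hκ : ∀ k ∈ B, ∑ w ∈ range n, ∑ j ∈ Ico (σ w) (ε w), κ k j ≤ KAP) :
    ∃ k ∈ B, ∑ w ∈ range n, ∑ j ∈ Ico (σ w) (ε w), Δ j ≤
      mi P l (C k (σ n)) (C k (σ 0)) + KAP + c * σ n +
        G * (Real.sqrt (σ n * (L₁ * A)) + σ n * Real.sqrt (β * A' / B.card)) := by
  classical
  set St : Finset (Σ _ : ℕ, ℕ) := (range n).sigma fun w => Ico (σ w) (ε w) with hSt
  have hmem : ∀ x : (Σ _ : ℕ, ℕ), x ∈ St ↔ x.1 < n ∧ σ x.1 ≤ x.2 ∧ x.2 < ε x.1 := by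
    intro x
    rw [hSt, Finset.mem_sigma, Finset.mem_range, Finset.mem_Ico]
  have hsum : ∀ f : ℕ → ℕ → ℝ, ∑ x ∈ St, f x.1 x.2 =
      ∑ w ∈ range n, ∑ j ∈ Ico (σ w) (ε w), f w j := by
    intro f
    rw [hSt, Finset.sum_sigma]
  have hcard : (St.card : ℝ) ≤ σ n := by
    have h4 := sum_windows_le (fun _ => (1 : ℝ)) (fun _ => zero_le_one) σ ε h1 h2 n
    rw [← hsum (fun _ _ => (1 : ℝ))] at h4
    simpa using h4
  -- the two informations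
  set I₁ : (Σ _ : ℕ, ℕ) → ℕ → ℝ := fun x k => mi P (e k) (C k (σ (x.1 + 1))) (C k x.2) with hI₁
  set I₂ : (Σ _ : ℕ, ℕ) → ℕ → ℝ := fun x k =>
    mi P (T (σ (x.1 + 1))) (C (k + β) x.2) (C k x.2) with hI₂
  have hj : ∀ x ∈ St, x.2 ≤ σ (x.1 + 1) ∧ σ (x.1 + 1) ≤ x.2 + L₁ := by
    intro x hx
    obtain ⟨_, ha, hb⟩ := (hmem x).1 hx
    refine ⟨(hb.le.trans (h2 _)), (h3 _).trans (Nat.add_le_add_right ha _)⟩
  have hA₁ : ∀ k ∈ B, ∑ x ∈ St, I₁ x k ≤ L₁ * A := by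
    intro k hk
    have h4 : ∀ x ∈ St, I₁ x k ≤ mi P (e k) (C k (x.2 + L₁)) (C k x.2) := by
      intro x hx
      obtain ⟨ha, hb⟩ := hj x hx
      rw [hI₁]
      dsimp only
      rw [mi_nested P _ ((hD k).CC ha), mi_nested P _ ((hD k).CC (Nat.le_add_right _ _))]
      have := hc_mono_right P (e k) ((hD k).CC hb)
      linarith
    refine (Finset.sum_le_sum h4).trans ?_
    rw [hsum (fun _ j => mi P (e k) (C k (j + L₁)) (C k j))]
    refine (sum_windows_le _ (fun j => mi_nonneg P _ _ _) σ ε h1 h2 n).trans ?_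
    refine (tele P (fun i => C k i) (fun i j hij => (hD k).CC hij) (e k) (σ n) L₁).trans ?_
    exact mul_le_mul_of_nonneg_left (hA k hk) (Nat.cast_nonneg _)
  have hA₂ : ∀ x ∈ St, ∑ k ∈ B, I₂ x k ≤ β * A' := by
    intro x hx
    obtain ⟨ha, hb⟩ := hj x hx
    have h4 : ∑ k ∈ B, I₂ x k ≤ ∑ k ∈ range K, I₂ x k :=
      Finset.sum_le_sum_of_subset_of_nonneg (fun k hk => Finset.mem_range.2 (hBK k hk))
        fun k _ _ => mi_nonneg P _ _ _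
    refine h4.trans ?_
    refine (tele P (fun k => C k x.2) (fun k k' hk => hC k k' x.2 hk) (T (σ (x.1 + 1))) K β).trans
      (mul_le_mul_of_nonneg_left ?_ (Nat.cast_nonneg _))
    refine le_trans ?_ (hA' x.2)
    refine (hc_mono_right P _ ((hD 0).TC x.2)).trans ?_
    exact hc_mono_left P fun ω ω' p p' h =>
      (hD 0).TT hb ω ω' p p' (congrArg Prod.fst h)
  obtain ⟨k, hk, hk1, hk2⟩ := exists_b B hB St I₁ I₂ (fun _ _ _ _ => mi_nonneg P _ _ _)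
    (fun _ _ _ _ => mi_nonneg P _ _ _) hA₁ hA₂
  refine ⟨k, hk, ?_⟩
  have hsat := (hD k).sat σ ε n h1 h2 (W k) (hW k hk) (hWe k hk)
  rw [← hsum (fun w j => hc P (W k w (j + 1)) (fun ω => (W k w j ω, C k j ω, T (σ (w + 1)) ω)))]
    at hsat
  have h5 : ∑ x ∈ St, (Δ x.2 - κ k x.2 - c - G * (Real.sqrt (I₁ x k) + Real.sqrt (I₂ x k))) ≤
      mi P l (C k (σ n)) (C k (σ 0)) := by
    refine le_trans (Finset.sum_le_sum fun x hx => ?_) hsat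
    obtain ⟨ha, hb, hc⟩ := (hmem x).1 hx
    exact hstep k hk x.1 ha x.2 hb hc
  rw [Finset.sum_sub_distrib, Finset.sum_sub_distrib, Finset.sum_sub_distrib, ← Finset.mul_sum,
    Finset.sum_add_distrib, Finset.sum_const, nsmul_eq_mul, hsum (fun _ j => Δ j),
    hsum (fun _ j => κ k j)] at h5
  have hβA : 0 ≤ (β : ℝ) * A' := by
    refine mul_nonneg (Nat.cast_nonneg _) ((hc_nonneg P _ _).trans (hA' 0))
  have hAnn : 0 ≤ A := (hc_nonneg P _ _).trans (hA k hk)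
  have h6 : Real.sqrt (St.card * (L₁ * A)) ≤ Real.sqrt (σ n * (L₁ * A)) :=
    Real.sqrt_le_sqrt (mul_le_mul_of_nonneg_right hcard (by positivity))
  have h7 : (St.card : ℝ) * Real.sqrt (β * A' / B.card) ≤ σ n * Real.sqrt (β * A' / B.card) :=
    mul_le_mul_of_nonneg_right hcard (Real.sqrt_nonneg _)
  have h8 : (St.card : ℝ) * c ≤ σ n * c := mul_le_mul_of_nonneg_right hcard hc0
  have h9 : G * (∑ x ∈ St, Real.sqrt (I₁ x k) + ∑ x ∈ St, Real.sqrt (I₂ x k)) ≤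
      G * (Real.sqrt (σ n * (L₁ * A)) + σ n * Real.sqrt (β * A' / B.card)) :=
    mul_le_mul_of_nonneg_left (by linarith) hG
  have h10 := hκ k hk
  linarith

end Vale.Agent.P127.U.H833
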